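import Vale.Agent.P331.LogLog.Order

/-!
The block rule: values are grouped in windows of levels and each window is served in the minor
between two flats spanned by the sample.
-/

namespace Vale.Agent.P331.LogLog

open Finset
open scoped NNReal

variable {α : Type} (M : Matroid α)

/-- The width of the windows at scale `t`. -/
def width (t : ℕ) : ℤ := 2 ^ t

/-- The boundary above level `i`. -/
def upper (t : ℕ) (i : ℤ) : ℤ := (i / width t + 1) * width t

/-- Level `i` is served with phase `r`. -/
def served (t : ℕ) (r : Fin 3) (i : ℤ) : Prop := (i / width t + 1) % 3 = ((r : ℕ) : ℤ)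

/-- The span of the sample at level at least `k`. -/
def flat (s : α → Option ℤ) (k : ℤ) : Set α := M.closure (above k s)

open Classical in
/-- The block rule at scale `t` and phase `r`. -/
noncomputable def blockRule (t : ℕ) (r : Fin 3) (s : α → Option ℤ) (A : Finset α) (e : α)
    (x : Option ℤ) : Bool :=
  decide (∃ i, x = some i ∧ served t r i ∧ e ∈ flat M s (upper t i - 3 * width t) ∧
    e ∉ M.closure (above (upper t i) s ∪ ((A : Set α) ∩ flat M s (upper t i - 3 * width t))))

theorem width_pos (t : ℕ) : 0 < width t := by simp [width]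

theorem upper_bounds (t : ℕ) (i : ℤ) : i + 1 ≤ upper t i ∧ upper t i ≤ i + width t := by
  have h1 := Int.mul_ediv_add_emod i (width t)
  have h2 := Int.emod_nonneg i (width_pos t).ne'
  have h3 := Int.emod_lt_of_pos i (width_pos t)
  have h4 : upper t i = width t * (i / width t) + width t := by rw [upper]; ring
  constructor <;> omega

theorem upper_gap {t : ℕ} {r : Fin 3} {i j : ℤ} (hi : served t r i) (hj : served t r j)
    (h : upper t i < upper t j) : upper t i ≤ upper t j - 3 * width t := by
  have hlt : i / width t + 1 < j / width t + 1 := lt_of_mul_lt_mul_right h (width_pos t).le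
  have h3 : i / width t + 1 + 3 ≤ j / width t + 1 := by
    unfold served at hi hj; omega
  have := mul_le_mul_of_nonneg_right h3 (width_pos t).le
  simp only [upper]
  linarith

theorem hi.mono {k k' : ℤ} {o : Option ℤ} (hk : k' ≤ k) (h : hi k o) : hi k' o :=
  let ⟨i, hio, hik⟩ := h; ⟨i, hio, hk.trans hik⟩

theorem above_mono {k k' : ℤ} (hk : k' ≤ k) (s : α → Option ℤ) : above k s ⊆ above k' s :=
  fun _ hb => hi.mono hk hb

theorem flat_mono {k k' : ℤ} (hk : k' ≤ k) (s : α → Option ℤ) : flat M s k ⊆ flat M s k' :=
  M.closure_subset_closure (above_mono hk s)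

variable [DecidableEq α]

/-- Every accepted element is outside the span of its upper flat with the other accepted
elements of its lower flat. -/
def Good (t : ℕ) (r : Fin 3) (s x : α → Option ℤ) (A : Finset α) : Prop :=
  ∀ a ∈ A, ∃ i, x a = some i ∧ served t r i ∧ a ∈ flat M s (upper t i - 3 * width t) ∧
    a ∉ M.closure (above (upper t i) s ∪
      (((A : Set α) \ {a}) ∩ flat M s (upper t i - 3 * width t)))

variable {M} {t : ℕ} {r : Fin 3} {s x : α → Option ℤ}

theorem Good.insert_accepted {A : Finset α} {e : α} (hA : Good M t r s x A)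
    (he : blockRule M t r s A e (x e) = true) : Good M t r s x (insert e A) := by
  classical
  simp only [blockRule, decide_eq_true_eq] at he
  obtain ⟨i, hxi, hsi, hlow, hout⟩ := he
  intro a ha
  rcases mem_insert.1 ha with rfl | ha
  · exact ⟨i, hxi, hsi, hlow, fun h => hout (M.closure_subset_closure
      (Set.union_subset_union_right _ (Set.inter_subset_inter_left _ (by simp))) h)⟩
  obtain ⟨j, hxj, hsj, hlowj, houtj⟩ := hA a ha
  refine ⟨j, hxj, hsj, hlowj, fun h => ?_⟩
  set X := above (upper t j) s ∪ (((A : Set α) \ {a}) ∩ flat M s (upper t j - 3 * width t))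
    with hX
  have hsub : above (upper t j) s ∪ ((((insert e A : Finset α) : Set α) \ {a}) ∩
      flat M s (upper t j - 3 * width t)) ⊆ insert e X := by
    rintro b (hb | ⟨⟨hb, hba⟩, hbf⟩)
    · exact Or.inr (Or.inl hb)
    · rcases mem_insert.1 hb with rfl | hb
      · exact Or.inl rfl
      · exact Or.inr (Or.inr ⟨⟨hb, hba⟩, hbf⟩)
  by_cases hef : e ∈ flat M s (upper t j - 3 * width t)
  swap
  · refine houtj (M.closure_subset_closure ?_ h)
    rintro b (hb | ⟨⟨hb, hba⟩, hbf⟩)
    · exact Or.inl hb
    · rcases mem_insert.1 hb with rfl | hb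
      · exact absurd hbf hef
      · exact Or.inr ⟨⟨hb, hba⟩, hbf⟩
  rcases lt_trichotomy (upper t j) (upper t i) with hlt | heq | hlt
  · have hecl : e ∈ M.closure X := by
      refine M.closure_subset_closure (X := above (upper t j) s) Set.subset_union_left ?_
      exact flat_mono M (upper_gap hsj hsi hlt) s hlow
    exact houtj (M.closure_insert_eq_of_mem_closure hecl ▸ M.closure_subset_closure hsub h)
  · have hex := M.mem_closure_insert houtj (M.closure_subset_closure hsub h)
    refine hout (M.closure_subset_closure ?_ hex)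
    rintro b (rfl | hb | ⟨⟨hb, -⟩, hbf⟩)
    · exact Or.inr ⟨ha, heq ▸ hlowj⟩
    · exact Or.inl (heq ▸ hb)
    · exact Or.inr ⟨hb, heq ▸ hbf⟩
  · refine hout (M.closure_subset_closure Set.subset_union_left ?_)
    exact flat_mono M (upper_gap hsi hsj hlt) s hef

theorem Good.indep {A : Finset α} (hA : Good M t r s x A) : M.Indep (A : Set α) := by
  induction A using Finset.induction_on_max_value
    (fun a => -(upper t ((x a).getD 0))) with
  | empty => simp
  | @insert a A haA hmax ih =>
    have hA' : Good M t r s x A := fun b hb => by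
      obtain ⟨j, h1, h2, h3, h4⟩ := hA b (mem_insert_of_mem hb)
      refine ⟨j, h1, h2, h3, fun h => h4 (M.closure_subset_closure ?_ h)⟩
      exact Set.union_subset_union_right _ (Set.inter_subset_inter_left _
        (Set.sdiff_subset_sdiff_left (by simp)))
    obtain ⟨i, hxi, hsi, hlow, hout⟩ := hA a (mem_insert_self a A)
    rw [coe_insert]
    refine Matroid.insert_indep_iff.2 ⟨ih hA', fun _ => ⟨M.mem_ground_of_mem_closure hlow,
      fun h => hout (M.closure_subset_closure ?_ h)⟩⟩
    intro b hb
    refine Or.inr ⟨⟨mem_insert_of_mem hb, fun hh => haA ?_⟩, ?_⟩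
    · rw [Set.mem_singleton_iff] at hh; exact hh ▸ hb
    obtain ⟨j, hxj, hsj, hlowj, -⟩ := hA b (mem_insert_of_mem hb)
    have hle : upper t i ≤ upper t j := by simpa [hxi, hxj] using hmax b hb
    exact flat_mono M (by linarith) s hlowj

variable {K : Type}

theorem run_spec {rule : (α → ℝ≥0) → K → Finset α → α → ℝ≥0 → Bool} {S V : α → ℝ≥0} {k : K}
    (hr : ∀ A e v, rule S k A e v = blockRule M t r (fun a => lv (S a)) A e (lv v))
    (l : List α) : ∀ A : Finset α, Good M t r (fun a => lv (S a)) (fun a => lv (V a)) A →
    let R := accepted rule S k V l A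
    Good M t r (fun a => lv (S a)) (fun a => lv (V a)) R ∧ A ⊆ R ∧
      ∀ a ∈ l, ∀ i, lv (V a) = some i → served t r i →
        a ∈ flat M (fun a => lv (S a)) (upper t i - 3 * width t) →
        a ∈ R ∨ a ∈ M.closure (above (upper t i) (fun a => lv (S a)) ∪
          ((R : Set α) ∩ flat M (fun a => lv (S a)) (upper t i - 3 * width t))) := by
  classical
  induction l with
  | nil => intro A hA; exact ⟨hA, subset_rfl, fun a ha => by simp at ha⟩
  | cons e l ih =>
    intro A hA
    by_cases h : rule S k A e (V e) = true
    · obtain ⟨h1, h2, h3⟩ := ih _ (hA.insert_accepted (hr A e (V e) ▸ h))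
      simp only [accepted, h, if_true]
      refine ⟨h1, (subset_insert e A).trans h2, fun a ha i hxi hsi hlow => ?_⟩
      rcases List.mem_cons.1 ha with rfl | ha
      · exact Or.inl (h2 (mem_insert_self _ _))
      · exact h3 a ha i hxi hsi hlow
    · obtain ⟨h1, h2, h3⟩ := ih A hA
      simp only [accepted, h]
      refine ⟨h1, h2, fun a ha i hxi hsi hlow => ?_⟩
      rcases List.mem_cons.1 ha with rfl | ha
      swap
      · exact h3 a ha i hxi hsi hlow
      refine Or.inr ?_
      by_contra hcl
      refine h ?_
      rw [hr]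
      simp only [blockRule, decide_eq_true_eq]
      exact ⟨i, hxi, hsi, hlow, fun h => hcl (M.closure_subset_closure
        (Set.union_subset_union_right _ (Set.inter_subset_inter_left _ (coe_subset.2 h2))) h)⟩

variable [Fintype α]

/-- The competitors of `e` in the window of level `i`. -/
def rivals (t : ℕ) (x : α → Option ℤ) (e : α) (i : ℤ) : Set α :=
  {b | b ≠ e ∧ ∃ j, x b = some j ∧ upper t j = upper t i ∧ (t = 0 → ord b < ord e)}

variable (M)

/-- The elements that the block rule is sure to pay for. -/
def Sure (t : ℕ) (r : Fin 3) (s x : α → Option ℤ) (e : α) : Prop :=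
  ∃ i, x e = some i ∧ served t r i ∧ e ∈ flat M s (upper t i - 3 * width t) ∧
    Out M e (above (upper t i) s ∪ rivals t x e i)

open Classical in
/-- The guaranteed payoff of the block rule. -/
noncomputable def blockGain (t : ℕ) (r : Fin 3) (s x : α → Option ℤ) : ℝ≥0 :=
  ∑ e ∈ univ.filter (Sure M t r s x), wt (x e)

variable {M}

theorem upper_inj_zero {i j : ℤ} (h : upper 0 i = upper 0 j) : i = j := by
  simpa [upper, width] using h

theorem blockGain_le {R : Finset α} (hR : Good M t r s x R)
    (hmax : ∀ e i, x e = some i → served t r i → e ∈ flat M s (upper t i - 3 * width t) →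
      e ∈ R ∨ e ∈ M.closure (above (upper t i) s ∪
        ((R : Set α) ∩ flat M s (upper t i - 3 * width t)))) :
    blockGain M t r s x ≤ ∑ e ∈ R, wt (x e) := by
  classical
  -- accepted elements of a lower flat lie in the upper flat or in the same window
  have hwin : ∀ {i}, served t r i → ∀ b ∈ (R : Set α) ∩ flat M s (upper t i - 3 * width t),
      b ∈ flat M s (upper t i) ∨ ∃ j, x b = some j ∧ upper t j = upper t i := by
    rintro i hsi b ⟨hb, hbf⟩
    obtain ⟨j, hxj, hsj, hlowj, houtj⟩ := hR b hb
    rcases lt_trichotomy (upper t j) (upper t i) with hlt | heq | hlt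
    · exact absurd (M.closure_subset_closure Set.subset_union_left
        (flat_mono M (upper_gap hsj hsi hlt) s hbf)) houtj
    · exact Or.inr ⟨j, hxj, heq⟩
    · exact Or.inl (flat_mono M (upper_gap hsi hsj hlt) s hlowj)
  set J := univ.filter (Sure M t r s x)
  rcases Nat.eq_zero_or_pos t with rfl | ht
  · -- one level per window: count in each minor
    rw [blockGain]
    refine sum_le_sum_of_count (fun e => wt (x e)) _ J R rfl fun c hc => ?_
    refine le_of_eq_of_le (card_eq_sum_card_fiberwise (f := x) (t := (univ : Finset α).image x)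
      fun a _ => mem_image_of_mem x (mem_univ a)) ?_
    refine le_of_le_of_eq (sum_le_sum fun o _ => ?_) (card_eq_sum_card_fiberwise (f := x)
      (t := (univ : Finset α).image x) fun a _ => mem_image_of_mem x (mem_univ a)).symm
    by_cases hco : c ≤ wt o
    swap
    · refine le_of_eq_of_le (card_eq_zero.2 (filter_eq_empty_iff.2 fun a ha hxa => hco ?_))
        (Nat.zero_le _)
      exact hxa ▸ (mem_filter.1 ha).2
    obtain ⟨i, rfl⟩ := some_of_wt_ne_zero (ne_of_gt (hc.trans_le hco))
    set J' := J.filter fun a => c ≤ wt (x a) ∧ x a = some i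
    set R' := R.filter fun a => c ≤ wt (x a) ∧ x a = some i
    suffices h : J'.card ≤ R'.card by
      simpa [J', R', J, filter_filter, and_assoc] using h
    rcases J'.eq_empty_or_nonempty with hJe | ⟨a₀, ha₀⟩
    · simp [hJe]
    have hsi : served 0 r i := by
      obtain ⟨ha, hxa⟩ := mem_filter.1 ha₀
      obtain ⟨i', hxi', hs', -, -⟩ := (mem_filter.1 ha).2
      rw [hxa.2] at hxi'
      cases hxi'
      exact hs'
    obtain ⟨B, hB⟩ := M.exists_isBasis' (above (upper 0 i) s)
    have hBsub : ∀ a ∈ J', a ∈ M.E \ M.closure (B ∪ {b | b ∈ J' ∧ ord b < ord a}) := by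
      intro a ha
      obtain ⟨haJ, -, hxa⟩ := mem_filter.1 ha
      obtain ⟨i', hxi', -, -, hout⟩ := (mem_filter.1 haJ).2
      rw [hxa] at hxi'
      cases hxi'
      refine hout.anti (Set.union_subset_union hB.subset ?_)
      rintro b ⟨hb, hba⟩
      exact ⟨fun h => lt_irrefl _ (h ▸ hba), i, (mem_filter.1 hb).2.2, rfl, fun _ => hba⟩
    have hind := indep_union_of_out (M := M) (fun a : α => ord a) (Fintype.equivFin α).injective
      hB.indep J' fun a ha => hBsub a ha
    have hdisj : Disjoint B (J' : Set α) := Set.disjoint_right.2 fun a ha haB =>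
      (hBsub a ha).2 (M.mem_closure_of_mem' (Or.inl haB) (hBsub a ha).1)
    have hcl : B ∪ (J' : Set α) ⊆ M.closure (B ∪ (R' : Set α)) := by
      refine Set.union_subset (fun b hb =>
        M.mem_closure_of_mem' (Or.inl hb) (hB.indep.subset_ground hb)) ?_
      intro a ha
      obtain ⟨haJ, hca, hxa⟩ := mem_filter.1 ha
      obtain ⟨i', hxi', -, hlow, -⟩ := (mem_filter.1 haJ).2
      rw [hxa] at hxi'
      cases hxi'
      rcases hmax a i hxa hsi hlow with h | h
      · exact M.mem_closure_of_mem' (Or.inr (mem_filter.2 ⟨h, hca, hxa⟩))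
          (M.mem_ground_of_mem_closure hlow)
      rw [← M.closure_inter_ground] at h
      refine M.closure_subset_closure_of_subset_closure ?_ h
      have hup : flat M s (upper 0 i) ⊆ M.closure (B ∪ (R' : Set α)) := by
        rw [flat, ← hB.closure_eq_closure]
        exact M.closure_subset_closure Set.subset_union_left
      rintro b ⟨hb | hb, hbE⟩
      · exact hup (M.mem_closure_of_mem' hb hbE)
      rcases hwin hsi b hb with hbu | ⟨j, hxj, hju⟩
      · exact hup hbu
      · obtain rfl := upper_inj_zero hju
        exact M.mem_closure_of_mem' (Or.inr (mem_filter.2 ⟨hb.1, hxj ▸ hco, hxj⟩)) hbE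
    have h1 := (hind.encard_le_eRk_of_subset hcl).trans
      ((M.eRk_closure_eq _).le.trans ((M.eRk_le_encard _).trans (Set.encard_union_le B R')))
    rw [Set.encard_union_eq hdisj, Set.encard_coe_eq_coe_finsetCard,
      Set.encard_coe_eq_coe_finsetCard] at h1
    exact_mod_cast (ENat.add_le_add_iff_left (Set.toFinite B).encard_lt_top.ne).1 h1
  · refine sum_le_sum_of_subset fun e he => ?_
    obtain ⟨i, hxi, hsi, hlow, hout⟩ := (mem_filter.1 he).2
    rcases hmax e i hxi hsi hlow with h | h
    · exact h
    by_contra hne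
    refine hout.2 ?_
    rw [← M.closure_inter_ground] at h
    refine M.closure_subset_closure_of_subset_closure ?_ h
    rintro b ⟨hb | hb, hbE⟩
    · exact M.mem_closure_of_mem' (Or.inl hb) hbE
    rcases hwin hsi b hb with hbu | ⟨j, hxj, hju⟩
    · exact M.closure_subset_closure Set.subset_union_left hbu
    · exact M.mem_closure_of_mem' (Or.inr ⟨fun hh => hne (hh ▸ hb.1), j, hxj, hju,
        fun h0 => absurd h0 ht.ne'⟩) hbE

end Vale.Agent.P331.LogLog
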