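import Vale.Agent.P331.LogLog.Key

/-!
The one-sample rule and its measurable payoff bounds.
-/

namespace Vale.Agent.P331.LogLog

open Finset MeasureTheory
open scoped NNReal ENNReal

variable {α : Type} [Fintype α] [DecidableEq α] (M : Matroid α) (L T : ℕ)

/-- The option of the threshold rule behind a choice among three. -/
def pick : Fin 3 → Fin (L + 2)
  | 0 => 0
  | 1 => ⟨L, by omega⟩
  | 2 => Fin.last (L + 1)

/-- The rule: a random scale and phase, or one of three thresholds. -/
noncomputable def rule (S : α → ℝ≥0) (k : (Fin (T + 1) × Fin 3) ⊕ Fin 3) (A : Finset α) (e : α)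
    (v : ℝ≥0) : Bool :=
  Sum.elim (fun p => blockRule M p.1 p.2 (fun b => lv (S b)) A e (lv v))
    (fun j => thresholdRule M L S (pick L j) A e v) k

theorem accepted_congr {K K' : Type} (f : (α → ℝ≥0) → K → Finset α → α → ℝ≥0 → Bool)
    (g : (α → ℝ≥0) → K' → Finset α → α → ℝ≥0 → Bool) (S : α → ℝ≥0) (k : K) (k' : K')
    (h : ∀ A e v, f S k A e v = g S k' A e v) (V : α → ℝ≥0) (l : List α) :
    ∀ A, accepted f S k V l A = accepted g S k' V l A := by
  induction l with
  | nil => intro A; rfl
  | cons e l ih => intro A; simp only [accepted, h, ih]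

theorem accepted_inr (S V : α → ℝ≥0) (j : Fin 3) (l : List α) :
    accepted (rule M L T) S (Sum.inr j) V l ∅ =
      accepted (thresholdRule M L) S (pick L j) V l ∅ :=
  accepted_congr (rule M L T) (thresholdRule M L) S (Sum.inr j) (pick L j) (fun _ _ _ => rfl) V l ∅

theorem indep_accepted (S V : α → ℝ≥0) (k : (Fin (T + 1) × Fin 3) ⊕ Fin 3) (l : List α) :
    M.Indep ((accepted (rule M L T) S k V l ∅ : Finset α) : Set α) := by
  rcases k with ⟨t, r⟩ | j
  · exact ((run_spec (M := M) (t := t) (r := r) (rule := rule M L T) (S := S) (V := V)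
      (k := Sum.inl (t, r)) (fun _ _ _ => rfl) l ∅ (fun a ha => by simp at ha)).1).indep
  · rw [accepted_inr]
    exact accepted_indep M L S V _

theorem blockGain_le_accepted (η : α → ℝ≥0 × ℝ≥0) (p : Fin (T + 1) × Fin 3) {l : List α}
    (hl : ∀ a, a ∈ l) :
    blockGain M p.1 p.2 (sLv η) (vLv η) ≤
      ∑ a ∈ accepted (rule M L T) (fun a => (η a).1) (Sum.inl p) (fun a => (η a).2) l ∅,
        (η a).2 := by
  obtain ⟨h1, -, h3⟩ := run_spec (M := M) (t := p.1) (r := p.2) (rule := rule M L T)
    (S := fun a => (η a).1) (V := fun a => (η a).2) (k := Sum.inl p) (fun _ _ _ => rfl) l ∅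
    (fun a ha => by simp at ha)
  exact (blockGain_le h1 fun e i => h3 e (hl e) i).trans (sum_le_sum fun a _ => wt_lv_le _)

theorem passGain_le_accepted (S V : α → ℝ≥0) {l : List α} (hl : ∀ a, a ∈ l) :
    passGain M L S V ≤ ∑ a ∈ accepted (thresholdRule M L) S (pick L 1) V l ∅, V a := by
  classical
  obtain ⟨hR, -, hmem, hmax⟩ := accepted_spec M L S V (pick L 1) l ∅ (by simp)
  set R := accepted (thresholdRule M L) S (pick L 1) V l ∅
  rw [passGain, ← sum_filter]
  refine sum_le_sum_of_subset fun e he => ?_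
  obtain ⟨-, hp, hout⟩ := mem_filter.1 he
  by_contra hne
  have hpass : ∀ v, passes M L S (pick L 1) v ↔ top M S / 2 ^ L ≤ v := fun v => by
    simp [passes, pick]
  rcases hmax e (hl e) ((hpass _).2 hp) with h | h
  · exact hne h
  refine h ?_
  rw [coe_insert]
  refine Matroid.insert_indep_iff.2 ⟨hR, fun _ => ⟨hout.1, fun hcl => hout.2 ?_⟩⟩
  refine M.closure_subset_closure (Y := {b | b ≠ e ∧ top M S / 2 ^ L ≤ V b})
    (fun b hb => ⟨fun hh => hne (hh ▸ hb), ?_⟩) hcl
  exact (hpass _).1 ((hmem b hb).resolve_left (notMem_empty _))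

/-- The levels as natural numbers. -/
noncomputable def code (v : ℝ≥0) : ℕ := Encodable.encode (lv v)

/-- The level of a code. -/
def uncode (n : ℕ) : Option ℤ := (Encodable.decode (α := Option ℤ) n).getD none

theorem uncode_code (v : ℝ≥0) : uncode (code v) = lv v := by simp [uncode, code]

theorem measurableSet_lv (o : Option ℤ) : MeasurableSet {v : ℝ≥0 | lv v = o} := by
  cases o with
  | none =>
    convert MeasurableSet.singleton (0 : ℝ≥0) using 1
    ext v
    by_cases h : v = 0 <;> simp [lv, h]
  | some i =>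
    convert (measurableSet_Ico (a := (2 : ℝ≥0) ^ i) (b := (2 : ℝ≥0) ^ (i + 1))) using 1
    ext v
    constructor
    · intro h
      have hv : v ≠ 0 := fun h0 => by simp [lv, h0] at h
      simp only [lv, Set.mem_setOf_eq, hv, if_false, Option.some.injEq] at h
      subst h
      exact ⟨by simpa using Int.zpow_log_le_self (R := ℝ≥0) one_lt_two (pos_iff_ne_zero.2 hv),
        by simpa using Int.lt_zpow_succ_log_self (R := ℝ≥0) one_lt_two v⟩
    · rintro ⟨h1, h2⟩
      have hv : v ≠ 0 := ne_of_gt (lt_of_lt_of_le (by positivity) h1)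
      have ha := (Int.zpow_log_le_self (R := ℝ≥0) one_lt_two (pos_iff_ne_zero.2 hv)).trans_lt h2
      have hb := h1.trans_lt (Int.lt_zpow_succ_log_self (R := ℝ≥0) one_lt_two v)
      rw [Nat.cast_ofNat, zpow_lt_zpow_iff_right₀ one_lt_two] at ha hb
      simp only [Set.mem_setOf_eq, lv, hv, if_false, Option.some.injEq]
      omega

theorem measurable_code : Measurable code := by
  refine measurable_to_countable' fun n => ?_
  by_cases h : ∃ o : Option ℤ, Encodable.encode o = n
  · obtain ⟨o, rfl⟩ := h
    convert measurableSet_lv o using 1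
    ext v
    simp [code]
  · convert MeasurableSet.empty using 1
    exact Set.eq_empty_of_forall_notMem fun v hv => h ⟨lv v, hv⟩

theorem measurable_rule (k : (Fin (T + 1) × Fin 3) ⊕ Fin 3) (A : Finset α) (e : α) :
    Measurable fun p : (α → ℝ≥0) × ℝ≥0 => rule M L T p.1 k A e p.2 := by
  rcases k with ⟨t, r⟩ | j
  · have h : Measurable fun p : (α → ℝ≥0) × ℝ≥0 => ((fun b => code (p.1 b)), code p.2) :=
      (measurable_pi_lambda _ fun b =>
        measurable_code.comp ((measurable_pi_apply b).comp measurable_fst)).prodMk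
        (measurable_code.comp measurable_snd)
    have := (measurable_of_countable fun q : (α → ℕ) × ℕ =>
      blockRule M t r (fun b => uncode (q.1 b)) A e (uncode q.2)).comp h
    simpa [Function.comp_def, uncode_code, rule] using this
  · exact measurable_thresholdRule M L _ A e

theorem measurable_blockGain (t : ℕ) (r : Fin 3) :
    Measurable fun η : α → ℝ≥0 × ℝ≥0 => blockGain M t r (sLv η) (vLv η) := by
  have h : Measurable fun η : α → ℝ≥0 × ℝ≥0 =>
      fun b => (code (η b).1, code (η b).2) :=
    measurable_pi_lambda _ fun b => (measurable_code.comp (measurable_pi_apply b).fst).prodMk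
      (measurable_code.comp (measurable_pi_apply b).snd)
  have := (measurable_of_countable fun q : α → ℕ × ℕ =>
    blockGain M t r (fun b => uncode (q b).1) (fun b => uncode (q b).2)).comp h
  simp only [Function.comp_def, uncode_code] at this
  exact this

theorem measurable_passGain :
    Measurable fun η : α → ℝ≥0 × ℝ≥0 =>
      passGain M L (fun a => (η a).1) (fun a => (η a).2) := by
  classical
  have hV : ∀ a, Measurable fun η : α → ℝ≥0 × ℝ≥0 => (η a).2 := fun a =>
    (measurable_pi_apply a).snd
  have ht : Measurable fun η : α → ℝ≥0 × ℝ≥0 => top M fun a => (η a).1 :=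
    (measurable_top M).comp (measurable_pi_lambda _ fun a => (measurable_pi_apply a).fst)
  have hB : Measurable fun η : α → ℝ≥0 × ℝ≥0 =>
      fun b => decide ((top M fun a => (η a).1) / 2 ^ L ≤ (η b).2) := by
    refine measurable_pi_lambda _ fun b => measurable_to_bool ?_
    simpa [Set.preimage] using measurableSet_le (ht.div_const _) (hV b)
  refine Finset.measurable_sum _ fun e _ => Measurable.ite ?_ (hV e) measurable_const
  have hs : MeasurableSet
      ((fun η : α → ℝ≥0 × ℝ≥0 => fun b => decide ((top M fun a => (η a).1) / 2 ^ L ≤ (η b).2)) ⁻¹'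
        {q : α → Bool | q e = true ∧ Out M e {b | b ≠ e ∧ q b = true}}) :=
    hB (Set.toFinite _).measurableSet
  simpa [Set.preimage] using hs

theorem measurable_allGain : Measurable fun η : α → ℝ≥0 × ℝ≥0 => allGain M L T η :=
  (Finset.measurable_sum _ fun k _ => measurable_blockGain M _ _).add
    ((measurable_passGain M L).add (measurable_totalGain M 0))

/-- The guaranteed payoff of one option. -/
noncomputable def optionGain (η : α → ℝ≥0 × ℝ≥0) : (Fin (T + 1) × Fin 3) ⊕ Fin 3 → ℝ≥0
  | Sum.inl p => blockGain M p.1 p.2 (sLv η) (vLv η)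
  | Sum.inr 0 => levelGain M (fun a => (η a).1) (fun a => (η a).2) 0
  | Sum.inr 1 => passGain M L (fun a => (η a).1) (fun a => (η a).2)
  | Sum.inr 2 => singleGain M (fun a => (η a).1) (fun a => (η a).2)

theorem optionGain_le (η : α → ℝ≥0 × ℝ≥0) (k : (Fin (T + 1) × Fin 3) ⊕ Fin 3) {l : List α}
    (hl : ∀ a, a ∈ l) :
    optionGain M L T η k ≤
      ∑ a ∈ accepted (rule M L T) (fun a => (η a).1) k (fun a => (η a).2) l ∅, (η a).2 := by
  rcases k with p | j
  · exact blockGain_le_accepted M L T η p hl
  rw [accepted_inr]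
  fin_cases j
  · exact levelGain_le M L _ _ hl 0 (by simp)
  · exact passGain_le_accepted M L _ _ hl
  · exact singleGain_le M L _ _ hl

theorem sum_optionGain (η : α → ℝ≥0 × ℝ≥0) : ∑ k, optionGain M L T η k = allGain M L T η := by
  simp only [Fintype.sum_sum_type, Fin.sum_univ_three, allGain, totalGain, optionGain,
    Finset.sum_range_one, zero_add]
  ring

theorem measurable_optionGain (k : (Fin (T + 1) × Fin 3) ⊕ Fin 3) :
    Measurable fun η => optionGain M L T η k := by
  rcases k with p | j
  · exact measurable_blockGain M _ _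
  fin_cases j
  · exact measurable_levelGain M 0
  · exact measurable_passGain M L
  · exact measurable_singleGain M

/-- The expected optimum is at most thirty-two times the expected guaranteed payoffs. -/
theorem integral_opt_le_allGain (hL : ∀ I : Finset α, M.Indep (I : Set α) → I.card ≤ 2 ^ L)
    (hT : L ≤ 2 ^ (T + 1)) (D : α → Measure ℝ≥0) [∀ a, IsProbabilityMeasure (D a)] :
    ∫⁻ ω, (opt M (fun a => (ω a).2) : ℝ≥0∞) ∂Measure.pi (fun a => (D a).prod (D a)) ≤
      32 * ∫⁻ ω, (allGain M L T ω : ℝ≥0∞) ∂Measure.pi (fun a => (D a).prod (D a)) := by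
  set P := Measure.pi fun a => (D a).prod (D a)
  have ho : Measurable fun ω : α → ℝ≥0 × ℝ≥0 => (opt M (fun a => (ω a).2) : ℝ≥0∞) :=
    ((measurable_opt M).comp (measurable_pi_lambda _ fun a =>
      (measurable_pi_apply a).snd)).coe_nnreal_ennreal
  have hg : Measurable fun ω : α → ℝ≥0 × ℝ≥0 => (allGain M L T ω : ℝ≥0∞) :=
    (measurable_allGain M L T).coe_nnreal_ennreal
  have hf := measurePreserving_flip D
  have hsum : ∀ {F : (α → ℝ≥0 × ℝ≥0) → ℝ≥0∞}, Measurable F →
      ∫⁻ ω, ∑ A : Finset α, F (flip A ω) ∂P = (Fintype.card (Finset α) : ℝ≥0∞) * ∫⁻ ω, F ω ∂P := by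
    intro F hF
    rw [lintegral_finsetSum (f := fun (A : Finset α) ω => F (flip A ω)) univ
      (fun A _ => hF.comp (hf A).measurable)]
    simp only [(hf _).lintegral_comp hF, sum_const, card_univ, nsmul_eq_mul, P]
  have key : ∫⁻ ω, ∑ A : Finset α, (opt M (fun a => (flip A ω a).2) : ℝ≥0∞) ∂P ≤
      ∫⁻ ω, ∑ A : Finset α, 32 * (allGain M L T (flip A ω) : ℝ≥0∞) ∂P := by
    refine lintegral_mono fun ω => ?_
    rw [← mul_sum, ← ENNReal.coe_ofNat, ← ENNReal.ofNNReal_finsetSum, ← ENNReal.ofNNReal_finsetSum,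
      ← ENNReal.coe_mul, ENNReal.coe_le_coe]
    exact sum_opt_le_allGain M L T hL hT ω
  rw [hsum ho, hsum (F := fun ω => 32 * (allGain M L T ω : ℝ≥0∞)) (hg.const_mul _)] at key
  rw [lintegral_const_mul _ hg] at key
  exact (ENNReal.mul_le_mul_iff_right (by simp) (by simp)).1 key

end Vale.Agent.P331.LogLog
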