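import Vale.Agent.P331.Pointwise

/-!
Exchange and domination over all flips of samples with values.
-/

namespace Vale.Agent.P331.LogLog

open Finset
open scoped NNReal symmDiff

variable {α : Type} [Fintype α] [DecidableEq α]

theorem sum_symmDiff (B : Finset α) (g : Finset α → ℝ≥0) :
    ∑ A : Finset α, g (B ∆ A) = ∑ A : Finset α, g A :=
  Equiv.sum_comp
    (Function.Involutive.toPerm (fun A => B ∆ A) (fun A => symmDiff_symmDiff_cancel_left B A)) g

omit [Fintype α] in
theorem flip_symmDiff (A B : Finset α) (ω : α → ℝ≥0 × ℝ≥0) :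
    flip (B ∆ A) ω = flip B (flip A ω) := (flip_flip A B ω).symm

/-- Exchange of the samples and the values of all elements but `e`. -/
theorem sum_exchange (ω : α → ℝ≥0 × ℝ≥0) (e : α) (F : ℝ≥0 × ℝ≥0 → Set α → ℝ≥0)
    (R : ℝ≥0 × ℝ≥0 → α → ℝ≥0 → Prop) :
    ∑ A : Finset α, F (flip A ω e) {b | b ≠ e ∧ R (flip A ω e) b (flip A ω b).2} =
      ∑ A : Finset α, F (flip A ω e) {b | b ≠ e ∧ R (flip A ω e) b (flip A ω b).1} := by
  rw [← sum_symmDiff (univ.erase e)]
  refine sum_congr rfl fun A _ => ?_
  rw [flip_symmDiff]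
  have he : flip (univ.erase e) (flip A ω) e = flip A ω e := by simp [flip]
  rw [he]
  congr 1
  ext b
  by_cases hb : b = e
  · simp [hb]
  · simp [flip, hb]

open Classical in
/-- If, coordinate by coordinate, `P` holds at most as often as `Q` over the two orders of a
pair, then monotone functions of the random sets compare. -/
theorem sum_le_of_pair (ω : α → ℝ≥0 × ℝ≥0) (e : α) (F : ℝ≥0 × ℝ≥0 → Set α → ℝ≥0)
    (hF : ∀ o X Y, X ⊆ Y → F o X ≤ F o Y) (P Q : ℝ≥0 × ℝ≥0 → α → ℝ≥0 × ℝ≥0 → Prop)
    (h1 : ∀ o b x, b ≠ e → P o b x → Q o b x ∨ Q o b x.swap)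
    (h2 : ∀ o b x, b ≠ e → P o b x → P o b x.swap → Q o b x ∧ Q o b x.swap) :
    ∑ A : Finset α, F (flip A ω e) {b | b ≠ e ∧ P (flip A ω e) b (flip A ω b)} ≤
      ∑ A : Finset α, F (flip A ω e) {b | b ≠ e ∧ Q (flip A ω e) b (flip A ω b)} := by
  let Z : Finset α → (α → ℝ≥0 × ℝ≥0) → Set α := fun T η =>
    {c | c ≠ e ∧ if c ∈ T then Q (η e) c (η c) else P (η e) c (η c)}
  let g : Finset α → Finset α → ℝ≥0 := fun T A => F (flip A ω e) (Z T (flip A ω))
  suffices h : ∀ T : Finset α, ∑ A, g ∅ A ≤ ∑ A, g T A by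
    simpa [g, Z] using h univ
  intro T
  induction T using Finset.induction with
  | empty => exact le_rfl
  | @insert b T hbT ih =>
    refine ih.trans ?_
    by_cases hbe : b = e
    · refine le_of_eq (sum_congr rfl fun A _ => ?_)
      simp only [g, Z]
      congr 1
      ext c
      simp only [Set.mem_setOf_eq, mem_insert]
      by_cases hc : c = e
      · simp [hc]
      · simp [hc, hbe]
    have key : ∀ η : α → ℝ≥0 × ℝ≥0,
        F (η e) (Z T η) + F (η e) (Z T (flip {b} η)) ≤
          F (η e) (Z (insert b T) η) + F (η e) (Z (insert b T) (flip {b} η)) := by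
      intro η
      have hoth : ∀ c, c ≠ b → flip {b} η c = η c := fun c hc => by simp [flip, hc]
      have he : flip {b} η e = η e := hoth e (Ne.symm hbe)
      have hb : flip {b} η b = (η b).swap := by simp [flip]
      let X : Set α := {c | c ≠ e ∧ c ≠ b ∧ if c ∈ T then Q (η e) c (η c) else P (η e) c (η c)}
      let W : Prop → Set α := fun p => X ∪ {c | c = b ∧ p}
      have hW : ∀ p : Prop, ∀ S : Set α, (∀ c, c ≠ b → (c ∈ S ↔ c ∈ X)) → (b ∈ S ↔ p) →
          S = W p := by
        intro p S h h'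
        ext c
        by_cases hc : c = b
        · subst hc; simp [W, X, h']
        · simp [W, hc, h c hc]
      rw [hW (P (η e) b (η b)) (Z T η) (fun c hc => by simp [Z, X, hc]) (by simp [Z, hbT, hbe]),
        hW (P (η e) b (η b).swap) (Z T (flip {b} η))
          (fun c hc => by simp [Z, X, hc, hoth c hc, he]) (by simp [Z, hbT, hbe, he, hb]),
        hW (Q (η e) b (η b)) (Z (insert b T) η) (fun c hc => by simp [Z, X, hc])
          (by simp [Z, hbe]),
        hW (Q (η e) b (η b).swap) (Z (insert b T) (flip {b} η))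
          (fun c hc => by simp [Z, X, hc, hoth c hc, he]) (by simp [Z, hbe, he, hb])]
      have hmono : ∀ p q : Prop, (p → q) → F (η e) (W p) ≤ F (η e) (W q) := fun p q hpq =>
        hF _ _ _ (Set.union_subset_union_right _ fun c hc => ⟨hc.1, hpq hc.2⟩)
      by_cases hp : P (η e) b (η b) <;> by_cases hp' : P (η e) b (η b).swap
      · obtain ⟨hq, hq'⟩ := h2 _ _ _ hbe hp hp'
        exact add_le_add (hmono _ _ fun _ => hq) (hmono _ _ fun _ => hq')
      · rcases h1 _ _ _ hbe hp with hq | hq
        · exact add_le_add (hmono _ _ fun _ => hq) (hmono _ _ fun h => absurd h hp')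
        · rw [add_comm (F _ (W (Q (η e) b (η b))))]
          exact add_le_add (hmono _ _ fun _ => hq) (hmono _ _ fun h => absurd h hp')
      · rcases h1 _ _ _ hbe hp' with hq | hq
        · exact add_le_add (hmono _ _ fun h => absurd h hp) (hmono _ _ fun _ => hq)
        · rw [Prod.swap_swap] at hq
          rw [add_comm (F _ (W (Q (η e) b (η b))))]
          exact add_le_add (hmono _ _ fun h => absurd h hp) (hmono _ _ fun _ => hq)
      · exact add_le_add (hmono _ _ fun h => absurd h hp) (hmono _ _ fun h => absurd h hp')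
    have hdouble : ∀ U : Finset α,
        ∑ A, (g U A + g U ({b} ∆ A)) = 2 * ∑ A, g U A := fun U => by
      rw [sum_add_distrib, sum_symmDiff, two_mul]
    have hle : ∑ A, (g T A + g T ({b} ∆ A)) ≤
        ∑ A, (g (insert b T) A + g (insert b T) ({b} ∆ A)) := by
      refine sum_le_sum fun A _ => ?_
      simp only [g, flip_symmDiff]
      have he : flip {b} (flip A ω) e = flip A ω e := by simp [flip, Ne.symm hbe]
      rw [he]
      exact key (flip A ω)
    rw [hdouble, hdouble] at hle
    exact le_of_mul_le_mul_left hle two_pos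

/-- A function dominated by another one or by its exchange at `e` sums to at most twice that
one. -/
theorem sum_le_two (ω : α → ℝ≥0 × ℝ≥0) (e : α) (f g : (α → ℝ≥0 × ℝ≥0) → ℝ≥0)
    (h : ∀ η, f η ≤ g η + g (flip {e} η)) :
    ∑ A : Finset α, f (flip A ω) ≤ 2 * ∑ A : Finset α, g (flip A ω) := by
  refine (sum_le_sum fun A _ => h (flip A ω)).trans (le_of_eq ?_)
  rw [sum_add_distrib, sum_comp_flip {e} g ω, two_mul]

end Vale.Agent.P331.LogLog
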