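import Vale.Agent.P331.LogLog.Block
import Vale.Agent.P331.LogLog.Flip

/-!
The pointwise inequality over all flips: the optimum is paid by the scales and by three
threshold options.
-/

namespace Vale.Agent.P331.LogLog

open Finset
open scoped NNReal symmDiff

variable {α : Type} [Fintype α] [DecidableEq α] (M : Matroid α) (L T : ℕ)

/-- The weight of an element whose sample is not above its value. -/
noncomputable def cw (o : ℝ≥0 × ℝ≥0) : ℝ≥0 := if wt (lv o.1) ≤ wt (lv o.2) then wt (lv o.2) else 0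

/-- The level of the value in a pair. -/
noncomputable def lev (o : ℝ≥0 × ℝ≥0) : ℤ := (lv o.2).getD 0

/-- The sets that interpolate between the heavier elements and all levels within `2 ^ j`. -/
def near (e : α) : ℕ → ℝ≥0 × ℝ≥0 → α → ℝ≥0 → Prop
  | 0, o, b, v => rankKey (wt (lv v)) b < rankKey (wt (lv o.2)) e
  | j + 1, o, _, v => hi (lev o - 2 ^ (j + 1)) (lv v)

/-- The near elements by sample. -/
def nearS (η : α → ℝ≥0 × ℝ≥0) (e : α) (j : ℕ) : Set α :=
  {b | b ≠ e ∧ near e j (η e) b (η b).1}

/-- The near elements by value. -/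
def nearV (η : α → ℝ≥0 × ℝ≥0) (e : α) (j : ℕ) : Set α :=
  {b | b ≠ e ∧ near e j (η e) b (η b).2}

/-- The levels of the samples. -/
noncomputable def sLv (η : α → ℝ≥0 × ℝ≥0) (b : α) : Option ℤ := lv (η b).1

/-- The levels of the values. -/
noncomputable def vLv (η : α → ℝ≥0 × ℝ≥0) (b : α) : Option ℤ := lv (η b).2

open Classical in
/-- The guaranteed payoff of a scale at one element. -/
noncomputable def sureGain (t : ℕ) (η : α → ℝ≥0 × ℝ≥0) (e : α) : ℝ≥0 :=
  if ∃ r, Sure M t r (sLv η) (vLv η) e then wt (vLv η e) else 0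

open Classical in
/-- The weight if `e` lies in the closure of `X`. -/
noncomputable def inW (e : α) (o : ℝ≥0 × ℝ≥0) (X : Set α) : ℝ≥0 :=
  if e ∈ M.closure X then cw o else 0

open Classical in
/-- The weight if `e` lies outside the closure of `X`. -/
noncomputable def outW (e : α) (o : ℝ≥0 × ℝ≥0) (X : Set α) : ℝ≥0 :=
  if Out M e X then cw o else 0

open Classical in
/-- The weight of a ground element. -/
noncomputable def groundW (e : α) (o : ℝ≥0 × ℝ≥0) : ℝ≥0 := if e ∈ M.E then cw o else 0

variable {M}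

theorem inW_add_outW (e : α) (o : ℝ≥0 × ℝ≥0) (X : Set α) :
    inW M e o X + outW M e o X = groundW M e o := by
  by_cases h : e ∈ M.closure X
  · simp [inW, outW, groundW, Out, h, M.mem_ground_of_mem_closure h]
  · by_cases hE : e ∈ M.E <;> simp [inW, outW, groundW, Out, h, hE]

theorem inW_mono (e : α) (o : ℝ≥0 × ℝ≥0) (X Y : Set α) (h : X ⊆ Y) :
    inW M e o X ≤ inW M e o Y := by
  by_cases hX : e ∈ M.closure X
  · simp [inW, hX, M.closure_subset_closure h hX]
  · simp [inW, hX]

theorem cw_ne_zero {o : ℝ≥0 × ℝ≥0} (h : cw o ≠ 0) :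
    ∃ i, lv o.2 = some i ∧ lev o = i ∧ wt (lv o.1) ≤ wt (lv o.2) ∧ cw o = wt (lv o.2) := by
  simp only [cw, ne_eq, ite_eq_right_iff, Classical.not_imp] at h
  obtain ⟨i, hi⟩ := some_of_wt_ne_zero h.2
  exact ⟨i, hi, by simp [lev, hi], h.1, if_pos h.1⟩

/-- A step between two scales is paid by the block rule. -/
theorem step (ω : α → ℝ≥0 × ℝ≥0) (e : α) (t : ℕ) :
    ∑ A : Finset α, inW M e (flip A ω e) (nearS (flip A ω) e (t + 1)) ≤
      ∑ A : Finset α, sureGain M t (flip A ω) e +
        ∑ A : Finset α, inW M e (flip A ω e) (nearS (flip A ω) e t) := by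
  let P : ℝ≥0 × ℝ≥0 → α → ℝ≥0 × ℝ≥0 → Prop := fun o b x =>
    hi (upper t (lev o)) (lv x.1) ∨
      ∃ j, lv x.2 = some j ∧ upper t j = upper t (lev o) ∧ (t = 0 → ord b < ord e)
  let X : (α → ℝ≥0 × ℝ≥0) → Set α := fun η => {b | b ≠ e ∧ P (η e) b (η b)}
  have hpoint : ∀ η, inW M e (η e) (nearS η e (t + 1)) ≤
      sureGain M t η e + inW M e (η e) (X η) := by
    intro η
    by_cases hX : e ∈ M.closure (X η)
    · refine le_add_left ?_
      simp only [inW, hX, if_true]
      split_ifs <;> simp
    by_cases hN : e ∈ M.closure (nearS η e (t + 1))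
    swap
    · simp [inW, hN]
    by_cases hc : cw (η e) = 0
    · simp [inW, hc]
    obtain ⟨i, hv, hlev, hsv, hcw⟩ := cw_ne_zero hc
    obtain ⟨hu1, hu2⟩ := upper_bounds t i
    have h3 : ((i / width t + 1) % 3).toNat < 3 := by omega
    have hsure : Sure M t ⟨_, h3⟩ (sLv η) (vLv η) e := by
      refine ⟨i, hv, ?_, ?_, M.mem_ground_of_mem_closure hN, fun h => hX ?_⟩
      · simp only [served]; omega
      · refine M.closure_subset_closure ?_ hN
        rintro b ⟨-, hb⟩
        refine hi.mono ?_ hb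
        have hw : (2 : ℤ) ^ (t + 1) = 2 * width t := by simp [width, pow_succ']
        rw [hlev, hw]
        linarith
      · refine M.closure_subset_closure ?_ h
        rintro b (⟨j, hj, hij⟩ | ⟨hbe, j, hj, hju, ht⟩)
        · refine ⟨?_, Or.inl ⟨j, hj, hlev ▸ hij⟩⟩
          rintro rfl
          have hj' : lv (η b).1 = some j := hj
          rw [hj', hv, wt_some_le] at hsv
          omega
        · exact ⟨hbe, Or.inr ⟨j, hj, hlev ▸ hju, ht⟩⟩
    refine le_add_right (le_of_eq ?_)
    rw [inW, if_pos hN, sureGain, if_pos ⟨_, hsure⟩, hcw]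
    rfl
  have hAQ : ∀ o b v, cw o ≠ 0 → hi (upper t (lev o)) (lv v) → near e t o b v := by
    rintro o b v hc ⟨j, hj, hij⟩
    obtain ⟨i, hv, hlev, -, -⟩ := cw_ne_zero hc
    have := (upper_bounds t i).1
    rw [hlev] at hij
    cases t with
    | zero =>
      refine rankKey_lt.2 (Or.inl ?_)
      rw [hj, hv, wt_some_lt]
      omega
    | succ n =>
      refine ⟨j, hj, ?_⟩
      have h2 : (0 : ℤ) < 2 ^ (n + 1) := by positivity
      rw [hlev]
      omega
  have hBQ : ∀ o b v, cw o ≠ 0 → (∃ j, lv v = some j ∧ upper t j = upper t (lev o) ∧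
      (t = 0 → ord b < ord e)) → near e t o b v := by
    rintro o b v hc ⟨j, hj, hju, ht⟩
    obtain ⟨i, hv, hlev, -, -⟩ := cw_ne_zero hc
    rw [hlev] at hju
    cases t with
    | zero =>
      obtain rfl := upper_inj_zero hju
      exact rankKey_lt.2 (Or.inr ⟨by rw [hj, hv], ht rfl⟩)
    | succ n =>
      refine ⟨j, hj, ?_⟩
      have := (upper_bounds (n + 1) i).1
      have := (upper_bounds (n + 1) j).2
      rw [hlev]
      simp only [width] at *
      omega
  let P' : ℝ≥0 × ℝ≥0 → α → ℝ≥0 × ℝ≥0 → Prop := fun o b x => cw o ≠ 0 ∧ P o b x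
  have hdom := sum_le_of_pair ω e (inW M e) (inW_mono e) P'
    (fun o b x => near e t o b x.1)
    (fun o b x _ h => h.2.imp (hAQ o b _ h.1) (hBQ o b _ h.1))
    (fun o b x _ h h' => by
      have hdis : ∀ v, hi (upper t (lev o)) (lv v) → ¬ ∃ j, lv v = some j ∧
          upper t j = upper t (lev o) ∧ (t = 0 → ord b < ord e) := by
        rintro v ⟨j, hj, hij⟩ ⟨j', hj', hju, -⟩
        rw [hj] at hj'
        cases hj'
        have := (upper_bounds t j).1
        omega
      have hc := h.1
      rcases h.2 with ha | hb <;> rcases h'.2 with ha' | hb'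
      · exact ⟨hAQ o b _ hc ha, hAQ o b _ hc ha'⟩
      · exact absurd hb' (hdis _ ha)
      · exact absurd hb (hdis _ ha')
      · exact ⟨hBQ o b _ hc hb', hBQ o b _ hc hb⟩)
  refine (sum_le_sum fun A _ => hpoint (flip A ω)).trans ?_
  rw [sum_add_distrib]
  refine add_le_add le_rfl (le_trans (sum_le_sum fun A _ => ?_) hdom)
  by_cases hc : cw (flip A ω e) = 0
  · simp [inW, hc]
  · exact inW_mono e _ _ _ fun b hb => ⟨hb.1, hc, hb.2⟩

/-- The scales pay for all elements spanned by the near levels. -/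
theorem chain (ω : α → ℝ≥0 × ℝ≥0) (e : α) (n : ℕ) :
    ∑ A : Finset α, inW M e (flip A ω e) (nearS (flip A ω) e n) ≤
      ∑ t ∈ range n, ∑ A : Finset α, sureGain M t (flip A ω) e +
        ∑ A : Finset α, inW M e (flip A ω e) (nearS (flip A ω) e 0) := by
  induction n with
  | zero => simp
  | succ n ih =>
    refine (step ω e n).trans ?_
    rw [sum_range_succ]
    calc _ ≤ ∑ A : Finset α, sureGain M n (flip A ω) e +
          (∑ t ∈ range n, ∑ A : Finset α, sureGain M t (flip A ω) e +
            ∑ A : Finset α, inW M e (flip A ω e) (nearS (flip A ω) e 0)) := add_le_add le_rfl ih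
      _ = _ := by ring

theorem outW_le (ω : α → ℝ≥0 × ℝ≥0) (e : α) (n : ℕ) :
    ∑ A : Finset α, outW M e (flip A ω e) (nearV (flip A ω) e 0) ≤
      ∑ t ∈ range n, ∑ A : Finset α, sureGain M t (flip A ω) e +
        ∑ A : Finset α, outW M e (flip A ω e) (nearV (flip A ω) e n) := by
  have hx : ∀ j, ∑ A : Finset α, outW M e (flip A ω e) (nearV (flip A ω) e j) =
      ∑ A : Finset α, outW M e (flip A ω e) (nearS (flip A ω) e j) :=
    fun j => sum_exchange ω e (outW M e) (near e j)
  rw [hx, hx]
  have h : ∀ j, ∑ A : Finset α, inW M e (flip A ω e) (nearS (flip A ω) e j) +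
      ∑ A : Finset α, outW M e (flip A ω e) (nearS (flip A ω) e j) =
      ∑ A : Finset α, groundW M e (flip A ω e) := fun j => by
    rw [← sum_add_distrib]; exact sum_congr rfl fun A _ => inW_add_outW _ _ _
  refine le_of_add_le_add_left
    (a := ∑ A : Finset α, inW M e (flip A ω e) (nearS (flip A ω) e 0)) ?_
  rw [h 0, ← h n]
  calc _ ≤ (∑ t ∈ range n, ∑ A : Finset α, sureGain M t (flip A ω) e +
        ∑ A : Finset α, inW M e (flip A ω e) (nearS (flip A ω) e 0)) +
        ∑ A : Finset α, outW M e (flip A ω e) (nearS (flip A ω) e n) :=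
      add_le_add (chain ω e n) le_rfl
    _ = _ := by ring

variable (M)

open Classical in
/-- The sure payoff of the lowest threshold. -/
noncomputable def passGain (S V : α → ℝ≥0) : ℝ≥0 :=
  ∑ e, if top M S / 2 ^ L ≤ V e ∧ Out M e {b | b ≠ e ∧ top M S / 2 ^ L ≤ V b} then V e else 0

open Classical in
/-- The total value of the elements above every sample. -/
noncomputable def excess (S V : α → ℝ≥0) : ℝ≥0 :=
  ∑ e, if e ∈ nonloops M ∧ top M S < V e then V e else 0

variable {M}

theorem tail_le (hL : ∀ I : Finset α, M.Indep (I : Set α) → I.card ≤ 2 ^ L)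
    (hT : L ≤ 2 ^ (T + 1)) (η : α → ℝ≥0 × ℝ≥0) :
    ∑ e, outW M e (η e) (nearV η e (T + 1)) ≤
      passGain M L (fun a => (η a).1) (fun a => (η a).2) + top M (fun a => (η a).1) +
        excess M (fun a => (η a).1) (fun a => (η a).2) := by
  classical
  set S := fun a => (η a).1 with hS
  set V := fun a => (η a).2 with hV
  set G := greedy M (vLv η) with hG
  set q := top M S / 2 ^ L with hq
  have hpt : ∀ e, outW M e (η e) (nearV η e (T + 1)) ≤
      ((if q ≤ V e ∧ Out M e {b | b ≠ e ∧ q ≤ V b} then V e else 0) +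
        if e ∈ G then q else 0) + if e ∈ nonloops M ∧ top M S < V e then V e else 0 := by
    intro e
    by_cases ho : Out M e (nearV η e (T + 1))
    swap
    · simp [outW, ho]
    by_cases hc : cw (η e) = 0
    · simp [outW, hc]
    obtain ⟨i, hv, hlev, -, hcw⟩ := cw_ne_zero hc
    simp only [outW, ho, if_true, hcw]
    have hwe : wt (lv (η e).2) ≠ 0 := by rw [hv]; exact (wt_some_pos i).ne'
    have hbefore : before (vLv η) e ⊆ nearV η e (T + 1) := by
      intro b hb
      refine ⟨fun hbe => lt_irrefl (rankKey (wt (vLv η e)) e) (by subst hbe; exact hb), ?_⟩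
      have hb' := rankKey_lt.1 hb
      have hwb : wt (some i) ≤ wt (lv (η b).2) := by
        rw [← hv]; rcases hb' with h | h; exacts [h.le, h.1.ge]
      obtain ⟨j, hj⟩ := some_of_wt_ne_zero ((wt_some_pos i).trans_le hwb).ne'
      rw [hj, wt_some_le] at hwb
      have h2 : (0 : ℤ) < 2 ^ (T + 1) := by positivity
      exact ⟨j, hj, by rw [hlev]; omega⟩
    have heG : e ∈ G := mem_filter.2 ⟨mem_univ _, hwe, ho.anti hbefore⟩
    have hen : e ∈ nonloops M := mem_filter.2 ⟨mem_univ _,
      (greedy_indep (vLv η)).subset (Set.singleton_subset_iff.2 (mem_coe.2 heG))⟩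
    have hle : wt (lv (η e).2) ≤ V e := wt_lv_le _
    by_cases h1 : top M S < V e
    · exact le_add_left (hle.trans (by rw [if_pos ⟨hen, h1⟩]))
    push Not at h1
    refine le_add_right ?_
    by_cases h2 : q ≤ V e
    swap
    · exact le_add_left (hle.trans ((not_le.1 h2).le.trans (by rw [if_pos heG])))
    refine le_add_right (hle.trans ?_)
    refine (if_pos ⟨h2, ho.anti ?_⟩).symm.le
    rintro b ⟨hbe, hb⟩
    refine ⟨hbe, ?_⟩
    have hVe : (2 : ℝ≥0) ^ i ≤ V e := by
      have := hle; rw [hv] at this; simpa [wt] using this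
    have hkey : (2 : ℝ≥0) ^ (i - (L : ℤ)) ≤ V b := by
      rw [zpow_sub₀ two_ne_zero, zpow_natCast]
      exact le_trans (div_le_div_of_nonneg_right (hVe.trans h1) zero_le) hb
    have hbpos : (η b).2 ≠ 0 := ne_of_gt (lt_of_lt_of_le (by positivity) hkey)
    refine ⟨Int.log 2 (η b).2, by simp [lv, hbpos], ?_⟩
    have hlt := hkey.trans_lt (Int.lt_zpow_succ_log_self (R := ℝ≥0) one_lt_two (η b).2)
    rw [Nat.cast_ofNat, zpow_lt_zpow_iff_right₀ one_lt_two] at hlt
    have hT' : (L : ℤ) ≤ 2 ^ (T + 1) := by exact_mod_cast hT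
    rw [hlev]
    omega
  refine (sum_le_sum fun e _ => hpt e).trans ?_
  rw [sum_add_distrib, sum_add_distrib, sum_ite_mem, univ_inter, sum_const, nsmul_eq_mul]
  refine add_le_add (add_le_add (le_of_eq rfl) ?_) le_rfl
  calc (G.card : ℝ≥0) * q ≤ (2 ^ L : ℕ) * q := by gcongr; exact_mod_cast hL G (greedy_indep _)
    _ = top M S := by rw [hq]; push_cast; field_simp

theorem sum_excess_le (ω : α → ℝ≥0 × ℝ≥0) :
    ∑ A : Finset α, excess M (fun a => (flip A ω a).1) (fun a => (flip A ω a).2) ≤
      ∑ A : Finset α, top M (fun a => (flip A ω a).2) := by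
  classical
  let F : α → ℝ≥0 × ℝ≥0 → Set α → ℝ≥0 := fun e o X =>
    if e ∈ nonloops M ∧ ∀ b ∈ nonloops M, b ∉ X then o.2 else 0
  calc ∑ A : Finset α, excess M (fun a => (flip A ω a).1) (fun a => (flip A ω a).2)
      ≤ ∑ A : Finset α, ∑ e,
          F e (flip A ω e) {b | b ≠ e ∧ (flip A ω e).2 ≤ (flip A ω b).1} := by
        refine sum_le_sum fun A _ => sum_le_sum fun e _ => ?_
        by_cases h : e ∈ nonloops M ∧ top M (fun a => (flip A ω a).1) < (flip A ω e).2
        · rw [if_pos h]
          simp only [F]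
          rw [if_pos ⟨h.1, fun b hb hb' => not_le.2 (lt_of_le_of_lt
            (le_sup (f := fun a => (flip A ω a).1) hb) h.2) hb'.2⟩]
        · rw [if_neg h]; exact zero_le
    _ = ∑ e, ∑ A : Finset α,
          F e (flip A ω e) {b | b ≠ e ∧ (flip A ω e).2 ≤ (flip A ω b).1} := sum_comm
    _ = ∑ e, ∑ A : Finset α,
          F e (flip A ω e) {b | b ≠ e ∧ (flip A ω e).2 ≤ (flip A ω b).2} :=
        sum_congr rfl fun e _ => (sum_exchange ω e (F e) (fun o _ v => o.2 ≤ v)).symm
    _ = ∑ A : Finset α, ∑ e,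
          F e (flip A ω e) {b | b ≠ e ∧ (flip A ω e).2 ≤ (flip A ω b).2} := sum_comm
    _ ≤ _ := sum_le_sum fun A _ => by
        by_cases h : ∃ e ∈ nonloops M,
            ∀ b ∈ nonloops M, ¬ (b ≠ e ∧ (flip A ω e).2 ≤ (flip A ω b).2)
        · obtain ⟨e₀, he₀, hb₀⟩ := h
          simp only [F]
          refine (sum_eq_single e₀ (fun e _ hne => if_neg fun h => ?_)
            (fun hn => absurd (mem_univ _) hn)).trans_le ?_
          · rcases le_total (flip A ω e₀).2 (flip A ω e).2 with hh | hh
            · exact hb₀ e h.1 ⟨hne, hh⟩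
            · exact h.2 e₀ he₀ ⟨Ne.symm hne, hh⟩
          · refine le_trans ?_ (le_sup (f := fun a => (flip A ω a).2) he₀)
            split_ifs <;> simp
        · refine le_trans (le_of_eq (sum_eq_zero fun e _ => if_neg fun h' => h ?_)) zero_le
          exact ⟨e, h'.1, h'.2⟩

theorem sum_top_le (ω : α → ℝ≥0 × ℝ≥0) :
    ∑ A : Finset α, top M (fun a => (flip A ω a).2) ≤
      4 * ∑ A : Finset α, totalGain M 0 (flip A ω) := by
  classical
  by_cases hne : (nonloops M).Nonempty
  swap
  · rw [not_nonempty_iff_eq_empty] at hne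
    simp [top, hne]
  let m : α → ℝ≥0 := fun a => max (ω a).1 (ω a).2
  obtain ⟨e, he, hem⟩ := exists_max_image (nonloops M) m hne
  obtain ⟨f, hf⟩ : ∃ f, (f = e ∧ ∀ a ∈ nonloops M, a = e) ∨ (f ∈ nonloops M ∧ f ≠ e ∧
      ∀ a ∈ nonloops M, a ≠ e → m a ≤ m f) := by
    by_cases h : ((nonloops M).erase e).Nonempty
    · obtain ⟨f, hf, hfm⟩ := exists_max_image _ m h
      exact ⟨f, Or.inr ⟨mem_of_mem_erase hf, ne_of_mem_erase hf,
        fun a ha hae => hfm a (mem_erase.2 ⟨hae, ha⟩)⟩⟩
    · exact ⟨e, Or.inl ⟨rfl, fun a ha => by_contra fun hae => h ⟨a, mem_erase.2 ⟨hae, ha⟩⟩⟩⟩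
  set Bs : Fin 4 → Finset α := ![∅, {e}, {f}, {e} ∆ {f}] with hBs
  have key : ∀ η, (∀ a, max (η a).1 (η a).2 = m a) →
      top M (fun a => (η a).2) ≤ ∑ i, totalGain M 0 (flip (Bs i) η) := by
    intro η hη
    obtain ⟨j, hje, hjf⟩ : ∃ j : Fin 4, (flip (Bs j) η e).2 = m e ∧
        (f ≠ e → (flip (Bs j) η f).1 = m f) := by
      by_cases hfe : f = e
      · rcases le_total (η e).1 (η e).2 with h | h
        · exact ⟨0, by rw [← hη e, max_eq_right h]; simp [hBs, flip], fun hh => absurd hfe hh⟩
        · exact ⟨1, by rw [← hη e, max_eq_left h]; simp [hBs, flip], fun hh => absurd hfe hh⟩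
      · rcases le_total (η e).1 (η e).2 with h | h <;>
          rcases le_total (η f).2 (η f).1 with h' | h'
        · exact ⟨0, by rw [← hη e, max_eq_right h]; simp [hBs, flip],
            fun _ => by rw [← hη f, max_eq_left h']; simp [hBs, flip]⟩
        · exact ⟨2, by rw [← hη e, max_eq_right h]; simp [hBs, flip, Ne.symm hfe],
            fun _ => by rw [← hη f, max_eq_right h']; simp [hBs, flip]⟩
        · exact ⟨1, by rw [← hη e, max_eq_left h]; simp [hBs, flip],
            fun _ => by rw [← hη f, max_eq_left h']; simp [hBs, flip, hfe]⟩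
        · exact ⟨3, by rw [← hη e, max_eq_left h];
                       simp [hBs, flip, Finset.mem_symmDiff, Ne.symm hfe],
            fun _ => by rw [← hη f, max_eq_right h']; simp [hBs, flip, Finset.mem_symmDiff, hfe]⟩
    have hbound : ∀ a, (flip (Bs j) η a).1 ≤ m a ∧ (flip (Bs j) η a).2 ≤ m a := fun a => by
      have := (max_flip (Bs j) η a).trans (hη a)
      exact ⟨this ▸ le_max_left _ _, this ▸ le_max_right _ _⟩
    have h2 : m e ≤ totalGain M 0 (flip (Bs j) η) := by
      rw [← hje]
      refine top_le_gain M 0 _ e he (fun a ha => ?_) fun a ha hae => ?_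
      · rw [hje]; exact (hbound a).1.trans (hem a ha)
      · rcases hf with ⟨-, hf⟩ | ⟨hfn, hfe, hfm⟩
        · exact absurd (hf a ha) hae
        · exact (hbound a).2.trans ((hfm a ha hae).trans ((hjf hfe).symm.le.trans
            (le_sup (f := fun a => (flip (Bs j) η a).1) hfn)))
    refine (Finset.sup_le fun a ha => ((hη a) ▸ le_max_right _ _).trans (hem a ha)).trans (h2.trans ?_)
    exact single_le_sum (f := fun k => totalGain M 0 (flip (Bs k) η)) (fun _ _ => zero_le)
      (mem_univ j)
  calc ∑ A : Finset α, top M (fun a => (flip A ω a).2)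
      ≤ ∑ A : Finset α, ∑ i, totalGain M 0 (flip (Bs i) (flip A ω)) :=
        sum_le_sum fun A _ => key _ fun a => max_flip A ω a
    _ = ∑ i, ∑ A : Finset α, totalGain M 0 (flip (Bs i) (flip A ω)) := sum_comm
    _ = _ := by
      simp only [sum_comp_flip _ (totalGain M 0) ω, sum_const, card_univ, Fintype.card_fin,
        nsmul_eq_mul]
      push_cast
      ring

variable (M)

/-- The sum of the guaranteed payoffs of all options. -/
noncomputable def allGain (η : α → ℝ≥0 × ℝ≥0) : ℝ≥0 :=
  (∑ k : Fin (T + 1) × Fin 3, blockGain M k.1 k.2 (sLv η) (vLv η)) +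
    (passGain M L (fun a => (η a).1) (fun a => (η a).2) + totalGain M 0 η)

/-- Summed over all flips, the optimum is at most thirty-two times the guaranteed payoffs. -/
theorem sum_opt_le_allGain (hL : ∀ I : Finset α, M.Indep (I : Set α) → I.card ≤ 2 ^ L)
    (hT : L ≤ 2 ^ (T + 1)) (ω : α → ℝ≥0 × ℝ≥0) :
    ∑ A : Finset α, opt M (fun a => (flip A ω a).2) ≤
      32 * ∑ A : Finset α, allGain M L T (flip A ω) := by
  classical
  have hpair : ∀ e, ∑ A : Finset α,
      (if e ∈ greedy M (vLv (flip A ω)) then wt (vLv (flip A ω) e) else 0) ≤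
        2 * ∑ A : Finset α, outW M e (flip A ω e) (nearV (flip A ω) e 0) := by
    intro e
    refine sum_le_two ω e (fun η => if e ∈ greedy M (vLv η) then wt (vLv η e) else 0)
      (fun η => outW M e (η e) (nearV η e 0)) fun η => ?_
    by_cases h : e ∈ greedy M (vLv η)
    swap
    · simp [h]
    rw [if_pos h]
    obtain ⟨-, -, hout⟩ := mem_filter.1 h
    rcases le_or_gt (wt (sLv η e)) (wt (vLv η e)) with hle | hlt
    · refine le_add_right (le_of_eq ?_)
      simp only [sLv, vLv] at hle
      rw [outW, if_pos (hout.anti fun b hb => hb.2), cw, if_pos hle]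
      rfl
    · refine le_add_left ?_
      have he : flip {e} η e = (η e).swap := by simp [flip]
      have hlt' : wt (lv (η e).2) ≤ wt (lv (η e).1) := hlt.le
      rw [outW, if_pos, he, cw]
      · simp only [Prod.fst_swap, Prod.snd_swap, if_pos hlt']; exact hlt'
      refine hout.anti fun b hb => ?_
      obtain ⟨hbe, hb⟩ := hb
      rw [he] at hb
      simp only [near, show flip {e} η b = η b by simp [flip, hbe]] at hb
      exact lt_trans hb (rankKey_lt.2 (Or.inl hlt))
  have hgain : ∀ η, ∑ t ∈ range (T + 1), ∑ e, sureGain M t η e ≤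
      ∑ k : Fin (T + 1) × Fin 3, blockGain M k.1 k.2 (sLv η) (vLv η) := by
    intro η
    rw [← Fin.sum_univ_eq_sum_range (fun t => ∑ e, sureGain M t η e), Fintype.sum_prod_type]
    refine sum_le_sum fun t _ => ?_
    simp only [blockGain, sum_filter]
    rw [sum_comm]
    refine sum_le_sum fun e _ => ?_
    unfold sureGain
    split_ifs with h
    · obtain ⟨r, hr⟩ := h
      refine le_trans ?_ (single_le_sum (fun _ _ => zero_le) (mem_univ r))
      rw [if_pos hr]
    · exact zero_le
  have htop : ∑ A : Finset α, top M (fun a => (flip A ω a).1) =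
      ∑ A : Finset α, top M (fun a => (flip A ω a).2) := by
    rw [← sum_comp_flip univ (fun η => top M fun a => (η a).1) ω]
    simp [flip]
  calc ∑ A : Finset α, opt M (fun a => (flip A ω a).2)
      ≤ ∑ A : Finset α,
          2 * ∑ e, if e ∈ greedy M (vLv (flip A ω)) then wt (vLv (flip A ω) e) else 0 :=
        sum_le_sum fun A _ => (opt_le_greedy _).trans (le_of_eq (by
          rw [sum_ite_mem, univ_inter]; rfl))
    _ ≤ 4 * ∑ e, ∑ A : Finset α, outW M e (flip A ω e) (nearV (flip A ω) e 0) := by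
        rw [← mul_sum, sum_comm]
        refine le_trans (mul_le_mul_of_nonneg_left (sum_le_sum fun e _ => hpair e) zero_le) (le_of_eq ?_)
        rw [← mul_sum]
        ring
    _ ≤ 4 * ∑ e, (∑ t ∈ range (T + 1), ∑ A : Finset α, sureGain M t (flip A ω) e +
          ∑ A : Finset α, outW M e (flip A ω e) (nearV (flip A ω) e (T + 1))) :=
        mul_le_mul_of_nonneg_left (sum_le_sum fun e _ => outW_le ω e (T + 1)) zero_le
    _ = 4 * ∑ A : Finset α, ((∑ t ∈ range (T + 1), ∑ e, sureGain M t (flip A ω) e) +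
          ∑ e, outW M e (flip A ω e) (nearV (flip A ω) e (T + 1))) := by
        congr 1
        simp only [sum_add_distrib]
        congr 1
        · rw [sum_comm]
          rw [sum_comm (s := univ (α := Finset α))]
          exact sum_congr rfl fun t _ => sum_comm
        · exact sum_comm
    _ ≤ 4 * ∑ A : Finset α, ((∑ k : Fin (T + 1) × Fin 3,
            blockGain M k.1 k.2 (sLv (flip A ω)) (vLv (flip A ω))) +
          (passGain M L (fun a => (flip A ω a).1) (fun a => (flip A ω a).2) +
            top M (fun a => (flip A ω a).1) +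
            excess M (fun a => (flip A ω a).1) (fun a => (flip A ω a).2))) :=
        mul_le_mul_of_nonneg_left (sum_le_sum fun A _ =>
          add_le_add (hgain _) (tail_le L T hL hT _)) zero_le
    _ ≤ _ := by
        simp only [allGain, sum_add_distrib, htop]
        have h1 := sum_top_le (M := M) ω
        have h2 := sum_excess_le (M := M) ω
        rw [← NNReal.coe_le_coe] at h1 h2 ⊢
        push_cast at h1 h2 ⊢
        have : ∀ f : Finset α → ℝ≥0, (0 : ℝ) ≤ ∑ A, (f A : ℝ) := fun f => by positivity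
        have hb := this fun A => ∑ k : Fin (T + 1) × Fin 3,
            blockGain M k.1 k.2 (sLv (flip A ω)) (vLv (flip A ω))
        have hp := this fun A =>
            passGain M L (fun a => (flip A ω a).1) (fun a => (flip A ω a).2)
        have hg := this fun A => totalGain M 0 (flip A ω)
        push_cast at hb hp hg
        linarith

end Vale.Agent.P331.LogLog
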