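import Vale.Agent.P331.Main

/-!
Levels of values and the greedy set used to bound the optimum.
-/

namespace Vale.Agent.P331.LogLog

open Finset
open scoped NNReal

/-- The binary level of a value; zero has no level. -/
noncomputable def lv (v : ℝ≥0) : Option ℤ := if v = 0 then none else some (Int.log 2 v)

/-- The weight of a level. -/
noncomputable def wt : Option ℤ → ℝ≥0
  | none => 0
  | some i => (2 : ℝ≥0) ^ i

/-- The level is at least `k`. -/
def hi (k : ℤ) (o : Option ℤ) : Prop := ∃ i, o = some i ∧ k ≤ i

variable {α : Type} (M : Matroid α)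

/-- The elements of level at least `k`. -/
def above (k : ℤ) (p : α → Option ℤ) : Set α := {b | hi k (p b)}

/-- A ground element outside the closure of `X`. -/
def Out (e : α) (X : Set α) : Prop := e ∈ M.E ∧ e ∉ M.closure X

variable {M}

theorem Out.anti {e : α} {X Y : Set α} (h : Out M e Y) (hXY : X ⊆ Y) : Out M e X :=
  ⟨h.1, fun hx => h.2 (M.closure_subset_closure hXY hx)⟩

theorem indep_union_of_out {β : Type} [LinearOrder β] [DecidableEq α] (key : α → β)
    (hkey : Function.Injective key) {B : Set α} (hB : M.Indep B) (J : Finset α) :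
    (∀ a ∈ J, Out M a (B ∪ {b | b ∈ J ∧ key b < key a})) → M.Indep (B ∪ (J : Set α)) := by
  induction J using Finset.induction_on_max_value key with
  | empty => intro _; simpa using hB
  | @insert a J haJ hmax ih =>
    intro h
    have hJ : M.Indep (B ∪ (J : Set α)) := ih fun b hb =>
      (h b (mem_insert_of_mem hb)).anti (Set.union_subset_union_right _
        fun c hc => ⟨mem_insert_of_mem hc.1, hc.2⟩)
    have ha := (h a (mem_insert_self a J)).anti (X := B ∪ (J : Set α))
      (Set.union_subset_union_right _ fun b hb => ⟨mem_insert_of_mem hb,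
        lt_of_le_of_ne (hmax b hb) fun hh => haJ (hkey hh ▸ hb)⟩)
    rw [coe_insert, Set.union_insert]
    exact Matroid.insert_indep_iff.2 ⟨hJ, fun _ => ⟨ha.1, ha.2⟩⟩

theorem card_le_of_indep_subset_closure {J : Finset α} {Z : Set α} (hJ : M.Indep (J : Set α))
    (hsub : (J : Set α) ⊆ M.closure Z) : (J.card : ℕ∞) ≤ Z.encard := by
  rw [← Set.encard_coe_eq_coe_finsetCard]
  exact (hJ.encard_le_eRk_of_subset hsub).trans ((M.eRk_closure_eq Z).le.trans (M.eRk_le_encard Z))

theorem sum_le_sum_of_count {ι : Type} [DecidableEq ι] (f : ι → ℝ≥0) (n : ℕ) :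
    ∀ I G : Finset ι, I.card = n →
      (∀ t, 0 < t → (I.filter fun a => t ≤ f a).card ≤ (G.filter fun a => t ≤ f a).card) →
      ∑ a ∈ I, f a ≤ ∑ a ∈ G, f a := by
  induction n with
  | zero => intro I G hI _; simp [card_eq_zero.1 hI]
  | succ n ih =>
    intro I G hI h
    obtain ⟨m, hm, hmin⟩ := exists_min_image I f (card_pos.1 (by omega))
    have hIer : (I.erase m).card = n := by rw [card_erase_of_mem hm]; omega
    rw [← add_sum_erase I f hm]
    rcases eq_zero_or_pos (f m) with h0 | h0
    · rw [h0, zero_add]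
      refine ih _ G hIer fun t ht => le_trans (card_le_card ?_) (h t ht)
      exact filter_subset_filter _ (erase_subset m I)
    have hall : I.filter (fun a => f m ≤ f a) = I := filter_true_of_mem hmin
    have hG := h (f m) h0
    rw [hall] at hG
    obtain ⟨g, hg, hgmin⟩ := exists_min_image (G.filter fun a => f m ≤ f a) f
      (card_pos.1 (by omega))
    obtain ⟨hgG, hgm⟩ := mem_filter.1 hg
    rw [← add_sum_erase G f hgG]
    refine add_le_add hgm (ih _ _ hIer fun t ht => ?_)
    rw [filter_erase, filter_erase]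
    rcases le_or_gt t (f m) with htm | htm
    · rw [card_erase_of_mem (mem_filter.2 ⟨hm, htm⟩),
        card_erase_of_mem (mem_filter.2 ⟨hgG, htm.trans hgm⟩)]
      exact Nat.sub_le_sub_right (h t ht) 1
    rw [erase_eq_of_notMem (s := I.filter fun a => t ≤ f a) (by simp [hm, not_le.2 htm])]
    by_cases htg : t ≤ f g
    · rw [card_erase_of_mem (mem_filter.2 ⟨hgG, htg⟩)]
      have h1 : (I.filter fun a => t ≤ f a).card < I.card :=
        card_lt_card (filter_ssubset.2 ⟨m, hm, not_le.2 htm⟩)
      have h2 : (G.filter fun a => f m ≤ f a) ⊆ G.filter fun a => t ≤ f a := fun a ha =>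
        mem_filter.2 ⟨(mem_filter.1 ha).1, htg.trans (hgmin a ha)⟩
      have := card_le_card h2
      omega
    · rw [erase_eq_of_notMem (by simp [htg])]
      exact h t ht

theorem wt_lv_le (v : ℝ≥0) : wt (lv v) ≤ v := by
  rcases eq_or_ne v 0 with rfl | h
  · simp [lv, wt]
  · simp only [lv, h, if_false, wt]
    exact_mod_cast Int.zpow_log_le_self one_lt_two (pos_iff_ne_zero.2 h)

theorem le_two_wt_lv (v : ℝ≥0) : v ≤ 2 * wt (lv v) := by
  rcases eq_or_ne v 0 with rfl | h
  · simp
  · simp only [lv, h, if_false, wt]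
    have := (Int.lt_zpow_succ_log_self (R := ℝ≥0) one_lt_two v).le
    rw [Nat.cast_ofNat, zpow_add_one₀ (two_ne_zero)] at this
    rwa [mul_comm]

theorem wt_some_pos (i : ℤ) : 0 < wt (some i) := by simp only [wt]; positivity

theorem some_of_wt_ne_zero {o : Option ℤ} (h : wt o ≠ 0) : ∃ i, o = some i := by
  cases o with
  | none => exact absurd rfl h
  | some i => exact ⟨i, rfl⟩

theorem wt_some_le {i j : ℤ} : wt (some i) ≤ wt (some j) ↔ i ≤ j := by
  simp only [wt]; exact zpow_le_zpow_iff_right₀ one_lt_two

theorem wt_some_lt {i j : ℤ} : wt (some i) < wt (some j) ↔ i < j := by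
  simp only [wt]; exact zpow_lt_zpow_iff_right₀ one_lt_two

variable [Fintype α]

/-- The order of the elements. -/
noncomputable def ord (a : α) : Fin (Fintype.card α) := Fintype.equivFin α a

/-- Heavier first, ties by the order of the elements. -/
noncomputable def rankKey (w : ℝ≥0) (a : α) : Lex (ℝ≥0ᵒᵈ × Fin (Fintype.card α)) :=
  toLex (OrderDual.toDual w, ord a)

theorem rankKey_lt {w w' : ℝ≥0} {a a' : α} :
    rankKey w a < rankKey w' a' ↔ w' < w ∨ w = w' ∧ ord a < ord a' := by
  simp [rankKey, Prod.Lex.toLex_lt_toLex]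

/-- The elements considered before `a` in the greedy order of the levels `x`. -/
def before (x : α → Option ℤ) (a : α) : Set α :=
  {b | rankKey (wt (x b)) b < rankKey (wt (x a)) a}

open Classical in
/-- The greedy set of the levels `x`. -/
noncomputable def greedy (M : Matroid α) (x : α → Option ℤ) : Finset α :=
  univ.filter fun a => wt (x a) ≠ 0 ∧ Out M a (before x a)

theorem greedy_indep [DecidableEq α] (x : α → Option ℤ) : M.Indep (greedy M x : Set α) := by
  have h := indep_union_of_out (M := M) (fun a => rankKey (wt (x a)) a)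
    (fun a b hab => (Fintype.equivFin α).injective (congrArg Prod.snd (congrArg ofLex hab)))
    M.empty_indep (greedy M x) (fun a ha => ((by classical exact (mem_filter.1 ha).2.2) : Out M a (before x a)).anti (by
      rintro b (hb | hb)
      · exact absurd hb (Set.notMem_empty _)
      · exact hb.2))
  simpa using h

theorem mem_closure_greedy [DecidableEq α] (x : α → Option ℤ) (n : ℕ) :
    ∀ a ∈ M.E, wt (x a) ≠ 0 →
      (univ.filter fun b => rankKey (wt (x b)) b < rankKey (wt (x a)) a).card ≤ n →
      a ∈ M.closure {g | g ∈ greedy M x ∧ wt (x a) ≤ wt (x g)} := by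
  induction n using Nat.strong_induction_on with
  | _ n ih =>
    intro a haE hwa hn
    by_cases hg : a ∈ greedy M x
    · exact M.mem_closure_of_mem' ⟨hg, le_rfl⟩ haE
    have hcl : a ∈ M.closure (before x a) := by
      by_contra hh
      exact hg (by classical exact mem_filter.2 ⟨mem_univ _, hwa, haE, hh⟩)
    rw [← M.closure_inter_ground] at hcl
    refine M.closure_subset_closure_of_subset_closure ?_ hcl
    rintro b ⟨hb, hbE⟩
    have hb' := rankKey_lt.1 hb
    have hw : wt (x a) ≤ wt (x b) := by rcases hb' with h | h; exacts [h.le, h.1.ge]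
    have hlt : (univ.filter fun c => rankKey (wt (x c)) c < rankKey (wt (x b)) b).card < n := by
      refine lt_of_lt_of_le (card_lt_card ⟨fun c hc => ?_, fun hs => ?_⟩) hn
      · exact mem_filter.2 ⟨mem_univ _, (mem_filter.1 hc).2.trans hb⟩
      · exact lt_irrefl _ (mem_filter.1 (hs (mem_filter.2 ⟨mem_univ b, hb⟩))).2
    refine M.closure_subset_closure (fun g hg => ?_) (ih _ hlt b hbE
      (ne_of_gt (lt_of_lt_of_le (pos_iff_ne_zero.2 hwa) hw)) le_rfl)
    exact ⟨hg.1, hw.trans hg.2⟩

theorem opt_le_greedy [DecidableEq α] (v : α → ℝ≥0) :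
    opt M v ≤ 2 * ∑ a ∈ greedy M (fun a => lv (v a)), wt (lv (v a)) := by
  classical
  refine Finset.sup_le fun I hI => ?_
  have hIi : M.Indep (I : Set α) := (mem_filter.1 hI).2
  calc ∑ a ∈ I, v a ≤ ∑ a ∈ I, 2 * wt (lv (v a)) := sum_le_sum fun a _ => le_two_wt_lv (v a)
    _ ≤ _ := by
      rw [← mul_sum]
      gcongr 2 * ?_
      refine sum_le_sum_of_count (fun a => wt (lv (v a))) _ I _ rfl fun t ht => ?_
      set G := (greedy M fun a => lv (v a)).filter fun a => t ≤ wt (lv (v a))
      have hsub : ((I.filter fun a => t ≤ wt (lv (v a)) : Finset α) : Set α) ⊆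
          M.closure (G : Set α) := by
        intro a ha
        obtain ⟨haI, hat⟩ := mem_filter.1 ha
        refine M.closure_subset_closure (fun g hg => ?_) (mem_closure_greedy (fun a => lv (v a)) _ a
          (hIi.subset_ground haI) (ne_of_gt (ht.trans_le hat)) le_rfl)
        exact mem_filter.2 ⟨hg.1, hat.trans hg.2⟩
      have := card_le_of_indep_subset_closure
        (hIi.subset (coe_subset.2 (filter_subset _ _))) hsub
      rw [Set.encard_coe_eq_coe_finsetCard] at this
      exact_mod_cast this

end Vale.Agent.P331.LogLog
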